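import Vale.Agent.P167.H259.FKAssoc
import Vale.Agent.P167.FK.Flip

/-!
# P167, general `q`, block GQ1: positive association and comparison of boundary conditions, final form
-/

namespace Vale.Agent.P167.H259

open Vale.Agent.P167.FK

/-- Positive association. -/
theorem f_fkg : F_fkg := f_fkg' f_flip f_good

/-- Comparison of boundary conditions. -/
theorem f_comp : F_comp := f_comp' f_flip f_good

/-- Comparison of boundary conditions through connections. -/
theorem f_comp2 : F_comp2 := f_comp2' f_flip f_good

end Vale.Agent.P167.H259
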