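import Vale.Agent.P167.Iface

/-!
# P167, block E (helper259): elementary facts about loops

Everything is deduced from `S_nx`, `S_jump`, `S_out`, `S_con`, `S_two`.
-/

namespace Vale.Agent.P167.H259

open Finset
open Vale.Agent.P167

/-! ### Edges and squares -/

lemma tlv_nx (ω : Cfg) (e : Ed) : tlv (nx ω e) = hdv e := by
  rcases e with ⟨x, y⟩ | ⟨x, y⟩
  · simp only [nx, hdv]
    split_ifs <;> simp only [tlv] <;> split_ifs <;> simp_all [Int.even_iff] <;> omega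
  · simp only [nx, hdv]
    split_ifs <;> simp only [tlv] <;> split_ifs <;> simp_all [Int.even_iff] <;> omega

lemma ls_near (e : Ed) : (ls e).1 ≤ (hdv e).1 + 1 ∧ (hdv e).1 ≤ (ls e).1 ∧
    (ls e).2 ≤ (hdv e).2 + 1 ∧ (hdv e).2 ≤ (ls e).2 := by
  rcases e with ⟨x, y⟩ | ⟨x, y⟩ <;> simp only [ls, hdv] <;> split_ifs <;> simp

lemma hdv_cases (e : Ed) (v : ℤ × ℤ) (h : hdv e = v) :
    e = Sum.inl v ∨ e = Sum.inl (v.1 - 1, v.2) ∨ e = Sum.inr v ∨ e = Sum.inr (v.1, v.2 - 1) := by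
  rcases e with ⟨x, y⟩ | ⟨x, y⟩ <;> simp only [hdv] at h <;> split_ifs at h <;> subst h <;> simp

lemma nm_nonneg (v : ℤ × ℤ) : 0 ≤ nm v := le_max_of_le_left (abs_nonneg _)

lemma nm_le_iff (v : ℤ × ℤ) (n : ℤ) : nm v ≤ n ↔ -n ≤ v.1 ∧ v.1 ≤ n ∧ -n ≤ v.2 ∧ v.2 ≤ n := by
  unfold nm
  rw [max_le_iff, abs_le, abs_le]
  tauto

lemma abs_fst_le (v : ℤ × ℤ) : -nm v ≤ v.1 ∧ v.1 ≤ nm v ∧ -nm v ≤ v.2 ∧ v.2 ≤ nm v :=
  (nm_le_iff v (nm v)).1 le_rfl

lemma nm_step {u v : ℤ × ℤ} (h : |u.1 - v.1| + |u.2 - v.2| = 1) : nm v ≤ nm u + 1 := by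
  have h1 := abs_fst_le u
  rw [nm_le_iff]
  have h2 : |u.1 - v.1| ≤ 1 := by have := abs_nonneg (u.2 - v.2); omega
  have h3 : |u.2 - v.2| ≤ 1 := by have := abs_nonneg (u.1 - v.1); omega
  rw [abs_le] at h2 h3
  omega

lemma nm_ls_le (e : Ed) : nm (ls e) ≤ nm (hdv e) + 1 := by
  have h1 := abs_fst_le (hdv e)
  have h2 := ls_near e
  rw [nm_le_iff]
  omega

lemma nm_hdv_le (e : Ed) : nm (hdv e) ≤ nm (ls e) + 1 := by
  have h1 := abs_fst_le (ls e)
  have h2 := ls_near e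
  rw [nm_le_iff]
  omega

/-! ### Loops -/

section

variable {ω : Cfg} {ℓ : Finset Ed}

lemma loop_nonempty (h : IsLoop ω ℓ) : ℓ.Nonempty := by
  obtain ⟨e, he⟩ := h
  exact ⟨e, (he e).2 ⟨0, rfl⟩⟩

lemma vs_nonempty (h : IsLoop ω ℓ) : (vs ℓ).Nonempty := (loop_nonempty h).image _

lemma nx_mem (h : IsLoop ω ℓ) {e : Ed} (he : e ∈ ℓ) : nx ω e ∈ ℓ := by
  obtain ⟨e0, h0⟩ := h
  obtain ⟨n, rfl⟩ := (h0 e).1 he
  exact (h0 _).2 ⟨n + 1, Function.iterate_succ_apply' _ _ _⟩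

lemma exists_pred (hn : S_nx) (h : IsLoop ω ℓ) {e : Ed} (he : e ∈ ℓ) :
    ∃ e' ∈ ℓ, nx ω e' = e := by
  classical
  have h1 : ℓ.image (nx ω) ⊆ ℓ := by
    intro x hx
    obtain ⟨y, hy, rfl⟩ := Finset.mem_image.1 hx
    exact nx_mem h hy
  have h2 : ℓ.image (nx ω) = ℓ := by
    apply Finset.eq_of_subset_of_card_le h1
    rw [Finset.card_image_of_injective _ (hn ω).injective]
  rw [← h2] at he
  obtain ⟨y, hy, h3⟩ := Finset.mem_image.1 he
  exact ⟨y, hy, h3⟩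

lemma hdv_mem {e : Ed} (he : e ∈ ℓ) : hdv e ∈ vs ℓ := Finset.mem_image_of_mem _ he

lemma tlv_mem (hn : S_nx) (h : IsLoop ω ℓ) {e : Ed} (he : e ∈ ℓ) : tlv e ∈ vs ℓ := by
  obtain ⟨e', he', rfl⟩ := exists_pred hn h he
  rw [tlv_nx]
  exact hdv_mem he'

lemma exists_edge {v : ℤ × ℤ} (hv : v ∈ vs ℓ) : ∃ e ∈ ℓ, hdv e = v := Finset.mem_image.1 hv

lemma W_edge (hj : S_jump) (h : IsLoop ω ℓ) {e : Ed} (he : e ∉ ℓ) :
    W ℓ (ls e) = W ℓ (rs e) := by
  have := hj ω ℓ h e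
  rwa [if_neg he, add_zero] at this

lemma corner_h (hn : S_nx) (hj : S_jump) (h : IsLoop ω ℓ) {x y : ℤ} (hv : (x, y) ∉ vs ℓ) :
    W ℓ (x + 1, y) = W ℓ (x, y) := by
  have he : (Sum.inr (x, y - 1) : Ed) ∉ ℓ := by
    intro he
    have h1 := hdv_mem he
    have h2 := tlv_mem hn h he
    simp only [hdv, tlv, sub_add_cancel] at h1 h2
    split_ifs at h1 h2
    · exact hv h2
    · exact hv h1
  have := W_edge hj h he
  simp only [ls, rs, sub_add_cancel] at this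
  split_ifs at this
  · exact this
  · exact this.symm

lemma corner_v (hn : S_nx) (hj : S_jump) (h : IsLoop ω ℓ) {x y : ℤ} (hv : (x, y) ∉ vs ℓ) :
    W ℓ (x, y + 1) = W ℓ (x, y) := by
  have he : (Sum.inl (x - 1, y) : Ed) ∉ ℓ := by
    intro he
    have h1 := hdv_mem he
    have h2 := tlv_mem hn h he
    simp only [hdv, tlv, sub_add_cancel] at h1 h2
    split_ifs at h1 h2
    · exact hv h1
    · exact hv h2
  have := W_edge hj h he
  simp only [ls, rs, sub_add_cancel] at this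
  split_ifs at this
  · exact this
  · exact this.symm

lemma corner_h' (hn : S_nx) (hj : S_jump) (h : IsLoop ω ℓ) {x y : ℤ} (hv : (x, y) ∉ vs ℓ) :
    W ℓ (x + 1, y + 1) = W ℓ (x, y + 1) := by
  have he : (Sum.inr (x, y) : Ed) ∉ ℓ := by
    intro he
    have h1 := hdv_mem he
    have h2 := tlv_mem hn h he
    simp only [hdv, tlv] at h1 h2
    split_ifs at h1 h2
    · exact hv h1
    · exact hv h2
  have := W_edge hj h he
  simp only [ls, rs] at this
  split_ifs at this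
  · exact this
  · exact this.symm

/-- The four corners of a square which is not visited have the same winding number. -/
lemma corner_ls (hn : S_nx) (hj : S_jump) (h : IsLoop ω ℓ) {v : ℤ × ℤ} (hv : v ∉ vs ℓ)
    {s : ℤ × ℤ} (h1 : v.1 ≤ s.1) (h2 : s.1 ≤ v.1 + 1) (h3 : v.2 ≤ s.2) (h4 : s.2 ≤ v.2 + 1) :
    W ℓ s = W ℓ v := by
  obtain ⟨x, y⟩ := v
  obtain ⟨a, b⟩ := s
  simp only at h1 h2 h3 h4
  have ha : a = x ∨ a = x + 1 := by omega
  have hb : b = y ∨ b = y + 1 := by omega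
  rcases ha with rfl | rfl <;> rcases hb with rfl | rfl
  · rfl
  · exact corner_v hn hj h hv
  · exact corner_h hn hj h hv
  · rw [corner_h' hn hj h hv, corner_v hn hj h hv]

/-- If the loop stays outside of a box, the winding number is constant in the box. -/
lemma box_const (hn : S_nx) (hj : S_jump) (h : IsLoop ω ℓ) {R : ℝ}
    (hR : ∀ v ∈ vs ℓ, R < (nm v : ℝ)) {s : ℤ × ℤ} (hs : (nm s : ℝ) ≤ R) : W ℓ s = W ℓ 0 := by
  have key : ∀ v : ℤ × ℤ, (nm v : ℝ) ≤ R → v ∉ vs ℓ := fun v hv hv' => by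
    have := hR v hv'
    linarith
  have mono : ∀ u v : ℤ × ℤ, nm u ≤ nm v → (nm v : ℝ) ≤ R → (nm u : ℝ) ≤ R := fun u v h1 h2 => by
    have : (nm u : ℝ) ≤ nm v := by exact_mod_cast h1
    linarith
  -- horizontal
  have hor : ∀ (x y : ℤ), (nm (x, y) : ℝ) ≤ R → W ℓ (x, y) = W ℓ (0, y) := by
    intro x y
    rcases le_total 0 x with hx | hx
    · induction x, hx using Int.leInduction with
      | base => intro _; rfl
      | succ x hx ih =>
        intro hR'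
        have h2 : (nm (x, y) : ℝ) ≤ R := by
          refine mono _ _ ?_ hR'
          unfold nm
          simp only
          apply max_le_max _ le_rfl
          rw [abs_of_nonneg hx, abs_of_nonneg (by omega : (0:ℤ) ≤ x + 1)]
          omega
        rw [corner_h hn hj h (key _ h2), ih h2]
    · induction x, hx using Int.leInductionDown with
      | base => intro _; rfl
      | pred x hx ih =>
        intro hR'
        have h2 : (nm (x, y) : ℝ) ≤ R := by
          refine mono _ _ ?_ hR'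
          unfold nm
          simp only
          apply max_le_max _ le_rfl
          rw [abs_of_nonpos hx, abs_of_nonpos (by omega : x - 1 ≤ (0:ℤ))]
          omega
        have h3 := corner_h hn hj h (key _ hR')
        rw [sub_add_cancel] at h3
        rw [← h3, ih h2]
  have ver : ∀ (y : ℤ), (nm (0, y) : ℝ) ≤ R → W ℓ (0, y) = W ℓ (0, 0) := by
    intro y
    rcases le_total 0 y with hy | hy
    · induction y, hy using Int.leInduction with
      | base => intro _; rfl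
      | succ y hy ih =>
        intro hR'
        have h2 : (nm (0, y) : ℝ) ≤ R := by
          refine mono _ _ ?_ hR'
          unfold nm
          simp only
          apply max_le_max le_rfl
          rw [abs_of_nonneg hy, abs_of_nonneg (by omega : (0:ℤ) ≤ y + 1)]
          omega
        rw [corner_v hn hj h (key _ h2), ih h2]
    · induction y, hy using Int.leInductionDown with
      | base => intro _; rfl
      | pred y hy ih =>
        intro hR'
        have h2 : (nm (0, y) : ℝ) ≤ R := by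
          refine mono _ _ ?_ hR'
          unfold nm
          simp only
          apply max_le_max le_rfl
          rw [abs_of_nonpos hy, abs_of_nonpos (by omega : y - 1 ≤ (0:ℤ))]
          omega
        have h3 := corner_v hn hj h (key _ hR')
        rw [sub_add_cancel] at h3
        rw [← h3, ih h2]
  obtain ⟨x, y⟩ := s
  rw [hor x y hs]
  refine ver y (mono _ _ ?_ hs)
  unfold nm
  simp

/-- If the loop stays inside of a box, it surrounds only sites of the box. -/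
lemma inner_ins (ho : S_out) (h : IsLoop ω ℓ) {R : ℝ} (hR : ∀ v ∈ vs ℓ, (nm v : ℝ) < R)
    {s : ℤ × ℤ} (hs : W ℓ s ≠ 0) : (nm s : ℝ) < R := by
  set N : ℤ := ⌈R⌉ - 1 with hN
  have h1 : ∀ n : ℤ, (n : ℝ) < R ↔ n ≤ N := fun n => by rw [← Int.lt_ceil, hN]; omega
  have h2 := ho ω ℓ h (-N) N (-N) N (fun v hv => by
    have := abs_fst_le v
    have := (h1 (nm v)).1 (hR v hv)
    omega) s hs
  rw [h1, nm_le_iff]
  omega

/-- The sites surrounded by a loop of diameter less than `d`. -/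
lemma small_ins (ho : S_out) (h : IsLoop ω ℓ) {d : ℝ} (hd : Small d ℓ) {u : ℤ × ℤ}
    (hu : u ∈ vs ℓ) {s : ℤ × ℤ} (hs : W ℓ s ≠ 0) : (nm (s - u) : ℝ) < d := by
  set N : ℤ := ⌈d⌉ - 1 with hN
  have h1 : ∀ n : ℤ, (n : ℝ) < d ↔ n ≤ N := fun n => by rw [← Int.lt_ceil, hN]; omega
  have hne := vs_nonempty h
  have hd' : ∀ v ∈ vs ℓ, ∀ w ∈ vs ℓ, nm (v - w) ≤ N := fun v hv w hw => (h1 _).1 (hd v hv w hw)
  obtain ⟨p, hp, hp'⟩ := (vs ℓ).exists_min_image (fun v => v.1) hne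
  obtain ⟨q, hq, hq'⟩ := (vs ℓ).exists_max_image (fun v => v.1) hne
  obtain ⟨r, hr, hr'⟩ := (vs ℓ).exists_min_image (fun v => v.2) hne
  obtain ⟨t, ht, ht'⟩ := (vs ℓ).exists_max_image (fun v => v.2) hne
  have h2 := ho ω ℓ h p.1 q.1 r.2 t.2 (fun v hv => ⟨hp' v hv, hq' v hv, hr' v hv, ht' v hv⟩) s hs
  have h3 := abs_fst_le (q - p)
  have h4 := abs_fst_le (t - r)
  have h5 := hd' q hq p hp
  have h6 := hd' t ht r hr
  have h7 := hp' u hu
  have h8 := hq' u hu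
  have h9 := hr' u hu
  have h10 := ht' u hu
  rw [h1, nm_le_iff]
  simp only [Prod.fst_sub, Prod.snd_sub] at *
  omega

lemma nm_sub_le (u v : ℤ × ℤ) : nm u ≤ nm v + nm (u - v) := by
  have h1 := abs_fst_le v
  have h2 := abs_fst_le (u - v)
  rw [nm_le_iff]
  simp only [Prod.fst_sub, Prod.snd_sub] at *
  omega

lemma nm_sub_comm (u v : ℤ × ℤ) : nm (u - v) = nm (v - u) := by
  unfold nm
  simp only [Prod.fst_sub, Prod.snd_sub]
  rw [abs_sub_comm, abs_sub_comm u.2]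

/-- Two loops which share an edge are equal. -/
lemma loop_eq (h2 : S_two) {ℓ' : Finset Ed} (h : IsLoop ω ℓ) (h' : IsLoop ω ℓ') {e : Ed}
    (he : e ∈ ℓ) (he' : e ∈ ℓ') : ℓ = ℓ' := by
  by_contra hne
  exact (h2 ω ℓ ℓ' h h' hne).1 e he' he

/-- Finitely many loops visit a finite set of squares. -/
lemma finite_loops (h2 : S_two) (ω : Cfg) (B : Finset (ℤ × ℤ)) :
    {ℓ | IsLoop ω ℓ ∧ ∃ v ∈ vs ℓ, v ∈ B}.Finite := by
  classical
  have hfin : {e : Ed | hdv e ∈ B}.Finite := by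
    apply Set.Finite.subset (Finset.finite_toSet
      (B.image (fun v => (Sum.inl v : Ed)) ∪ B.image (fun v => (Sum.inl (v.1 - 1, v.2) : Ed)) ∪
       (B.image (fun v => (Sum.inr v : Ed)) ∪ B.image (fun v => (Sum.inr (v.1, v.2 - 1) : Ed)))))
    intro e he
    have he' : hdv e ∈ B := he
    simp only [Finset.coe_union, Set.mem_union, Finset.mem_coe, Finset.mem_image]
    rcases hdv_cases e _ rfl with h | h | h | h
    · exact Or.inl (Or.inl ⟨_, he', h.symm⟩)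
    · exact Or.inl (Or.inr ⟨_, he', h.symm⟩)
    · exact Or.inr (Or.inl ⟨_, he', h.symm⟩)
    · exact Or.inr (Or.inr ⟨_, he', h.symm⟩)
  have hch : ∀ ℓ : Finset Ed, ∃ e : Ed, (IsLoop ω ℓ ∧ ∃ v ∈ vs ℓ, v ∈ B) → e ∈ ℓ ∧ hdv e ∈ B := by
    intro ℓ
    by_cases h : IsLoop ω ℓ ∧ ∃ v ∈ vs ℓ, v ∈ B
    · obtain ⟨_, v, hv, hB⟩ := h
      obtain ⟨e, he, rfl⟩ := exists_edge hv
      exact ⟨e, fun _ => ⟨he, hB⟩⟩
    · exact ⟨Sum.inl (0, 0), fun h' => absurd h' h⟩
  choose g hg using hch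
  apply Set.Finite.of_finite_image (hfin.subset _) (f := g)
  · intro ℓ hℓ ℓ' hℓ' heq
    exact loop_eq h2 hℓ.1 hℓ'.1 (hg ℓ hℓ).1 (heq ▸ (hg ℓ' hℓ').1)
  · rintro _ ⟨ℓ, hℓ, rfl⟩
    exact (hg ℓ hℓ).2

/-- The box as a `Finset`. -/
noncomputable def bx (n : ℤ) : Finset (ℤ × ℤ) := Finset.Icc (-n) n ×ˢ Finset.Icc (-n) n

lemma mem_bx {n : ℤ} {v : ℤ × ℤ} : v ∈ bx n ↔ nm v ≤ n := by
  unfold bx
  rw [Finset.mem_product, Finset.mem_Icc, Finset.mem_Icc, nm_le_iff]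
  tauto

lemma finite_loops' (h2 : S_two) (ω : Cfg) (R : ℝ) :
    {ℓ | IsLoop ω ℓ ∧ ∃ v ∈ vs ℓ, (nm v : ℝ) ≤ R}.Finite := by
  refine (finite_loops h2 ω (bx ⌊R⌋)).subset ?_
  rintro ℓ ⟨h, v, hv, hR⟩
  exact ⟨h, v, hv, mem_bx.2 (Int.le_floor.2 hR)⟩

end

end Vale.Agent.P167.H259
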