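import Vale.Agent.P167.H259.Base

/-!
# P167, block E3 / E4 (helper259): classification of the loops
-/

namespace Vale.Agent.P167.H259

open Finset
open Vale.Agent.P167

/-! ### The mass surrounded by a loop -/

lemma G_eq_sum {f : ℤ × ℤ → ℝ} {B : Finset (ℤ × ℤ)} (hB : ∀ s, f s ≠ 0 → s ∈ B)
    (ℓ : Finset Ed) : G f ℓ = ∑ s ∈ B, if W ℓ s ≠ 0 then f s else 0 := by
  classical
  unfold G ins
  rw [finsum_mem_def, finsum_eq_sum_of_support_subset (s := B)]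
  · apply Finset.sum_congr rfl
    intro s _
    by_cases h : W ℓ s = 0 <;> simp [Set.indicator, h]
  · intro s hs
    rw [Function.mem_support] at hs
    apply hB
    intro h
    apply hs
    simp [Set.indicator, h]

lemma G_zero {f : ℤ × ℤ → ℝ} {ℓ : Finset Ed} (h : ∀ s, f s ≠ 0 → W ℓ s = 0) : G f ℓ = 0 := by
  unfold G ins
  apply finsum_mem_eq_zero_of_forall_eq_zero
  intro s hs
  by_contra h1
  exact hs (h s h1)

lemma G_one {m : ℤ × ℤ → ℝ} {ℓ : Finset Ed} (h : ∀ s, m s ≠ 0 → W ℓ s ≠ 0) :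
    G m ℓ = ∑ᶠ s, m s := by
  unfold G ins
  rw [finsum_mem_def]
  apply finsum_congr
  intro s
  by_cases h1 : m s = 0
  · simp [Set.indicator, h1]
  · simp [Set.indicator, h s h1]

section

variable {Cm ρ : ℝ} {m : ℤ × ℤ → ℝ}

lemma chg_mem (hm : Chg Cm ρ m) {R : ℝ} (hR : 2 * ρ ≤ R) (s : ℤ × ℤ) (hs : m s ≠ 0) :
    s ∈ bx ⌊R⌋ := by
  have := (hm.supp s hs).2
  exact mem_bx.2 (Int.le_floor.2 (by linarith))

lemma chg_sum (hm : Chg Cm ρ m) {R : ℝ} (hR : 2 * ρ ≤ R) : ∑ s ∈ bx ⌊R⌋, m s = 1 := by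
  rw [← hm.sum, finsum_eq_sum_of_support_subset]
  intro s hs
  exact chg_mem hm hR s hs

lemma G_nonneg (hm : Chg Cm ρ m) (ℓ : Finset Ed) : 0 ≤ G m ℓ := by
  rw [G_eq_sum (chg_mem hm le_rfl)]
  apply Finset.sum_nonneg
  intro s _
  split_ifs
  · exact hm.nonneg s
  · exact le_rfl

lemma G_le_one (hm : Chg Cm ρ m) (ℓ : Finset Ed) : G m ℓ ≤ 1 := by
  rw [G_eq_sum (chg_mem hm le_rfl), ← chg_sum hm le_rfl]
  apply Finset.sum_le_sum
  intro s _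
  split_ifs
  · exact le_rfl
  · exact hm.nonneg s

lemma G_mem (hm : Chg Cm ρ m) (ℓ : Finset Ed) : G m ℓ ∈ Set.Icc (0 : ℝ) 1 :=
  ⟨G_nonneg hm ℓ, G_le_one hm ℓ⟩

lemma G_chg_one (hm : Chg Cm ρ m) {ℓ : Finset Ed} (h : ∀ s, m s ≠ 0 → W ℓ s ≠ 0) : G m ℓ = 1 := by
  rw [G_one h, hm.sum]

end

lemma G_smul (b : ℝ) (m : ℤ × ℤ → ℝ) (ℓ : Finset Ed) {B : Finset (ℤ × ℤ)}
    (hB : ∀ s, m s ≠ 0 → s ∈ B) : G (fun x => b * m x) ℓ = b * G m ℓ := by
  rw [G_eq_sum (B := B) (fun s hs => hB s (right_ne_zero_of_mul hs)), G_eq_sum hB, Finset.mul_sum]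
  apply Finset.sum_congr rfl
  intro s _
  split_ifs <;> simp

lemma G_lin (b : Fin 3 → ℝ) (m : Fin 3 → ℤ × ℤ → ℝ) (ℓ : Finset Ed) {B : Finset (ℤ × ℤ)}
    (hB : ∀ j s, m j s ≠ 0 → s ∈ B) :
    G (fun x => ∑ j, b j * m j x) ℓ = ∑ j, b j * G (m j) ℓ := by
  have h1 : ∀ s, (∑ j, b j * m j s) ≠ 0 → s ∈ B := by
    intro s hs
    obtain ⟨j, _, hj⟩ := Finset.exists_ne_zero_of_sum_ne_zero hs
    exact hB j s (right_ne_zero_of_mul hj)
  rw [G_eq_sum h1]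
  have h2 : ∀ j, b j * G (m j) ℓ = ∑ s ∈ B, if W ℓ s ≠ 0 then b j * m j s else 0 := by
    intro j
    rw [G_eq_sum (hB j), Finset.mul_sum]
    apply Finset.sum_congr rfl
    intro s _
    split_ifs <;> simp
  rw [Finset.sum_congr rfl (fun j _ => h2 j), Finset.sum_comm]
  apply Finset.sum_congr rfl
  intro s _
  split_ifs
  · rfl
  · simp

/-! ### The set-up -/

lemma wf_zero : wf 0 = 1 := by
  unfold wf
  rw [add_zero, Real.cos_pi_div_three]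
  norm_num

lemma abs_wf_le (t : ℝ) : |wf t| ≤ 2 := by
  unfold wf
  rw [abs_mul, abs_two]
  have := Real.abs_cos_le_one (Real.pi / 3 + t)
  linarith

/-- The loop facts which are used. -/
structure Top : Prop where
  nx : S_nx
  jump : S_jump
  out : S_out
  con : S_con
  two : S_two

/-- The assumptions on the charges. -/
structure Dat (κ Cm : ℝ) (ρ b : Fin 3 → ℝ) (m : Fin 3 → ℤ × ℤ → ℝ) : Prop where
  κ0 : 0 < κ
  κ1 : κ ≤ 1 / 8
  r0 : 32 ≤ ρ 0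
  r1 : 4 * ρ 0 ≤ ρ 1
  r2 : 4 * ρ 1 ≤ ρ 2
  hm : ∀ j, Chg Cm (ρ j) (m j)
  hb : ∑ j, b j = 0

section

variable {κ Cm : ℝ} {ρ b : Fin 3 → ℝ} {m : Fin 3 → ℤ × ℤ → ℝ} {ω : Cfg} {ℓ : Finset Ed}

/-- `ℓ` visits the annulus `j`. -/
def Vj (ρ : Fin 3 → ℝ) (j : Fin 3) (ℓ : Finset Ed) : Prop := Vis (ρ j - 2) (2 * ρ j + 2) ℓ

lemma Dat.lt (D : Dat κ Cm ρ b m) {i j : Fin 3} (h : i < j) : 4 * ρ i ≤ ρ j ∧ 32 ≤ ρ i := by
  have h0 := D.r0
  have h1 := D.r1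
  have h2 := D.r2
  fin_cases i <;> fin_cases j <;> simp at h ⊢ <;> constructor <;> linarith

lemma Dat.ge (D : Dat κ Cm ρ b m) (j : Fin 3) : 32 ≤ ρ j := by
  have h0 := D.r0
  have h1 := D.r1
  have h2 := D.r2
  fin_cases j <;> simp <;> linarith

lemma Dat.le2 (D : Dat κ Cm ρ b m) (j : Fin 3) : ρ j ≤ ρ 2 := by
  have h0 := D.r0
  have h1 := D.r1
  have h2 := D.r2
  fin_cases j <;> simp <;> linarith

lemma Dat.mem (D : Dat κ Cm ρ b m) (j : Fin 3) (s : ℤ × ℤ) (hs : m j s ≠ 0) :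
    s ∈ bx ⌊2 * ρ 2⌋ :=
  chg_mem (D.hm j) (by linarith [D.le2 j]) s hs

lemma Dat.G_eq (D : Dat κ Cm ρ b m) (ℓ : Finset Ed) :
    G (fun x => ∑ j, b j * m j x) ℓ = b 0 * G (m 0) ℓ + b 1 * G (m 1) ℓ + b 2 * G (m 2) ℓ := by
  rw [G_lin b m ℓ D.mem, Fin.sum_univ_three]

lemma Dat.G_smul (D : Dat κ Cm ρ b m) (j : Fin 3) (ℓ : Finset Ed) :
    G (fun x => b j * m j x) ℓ = b j * G (m j) ℓ :=
  H259.G_smul (b j) (m j) ℓ (D.mem j)

/-- A small loop near the charge `j` visits no other annulus and surrounds no part of the other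
charges. -/
lemma small_one (T : Top) (D : Dat κ Cm ρ b m) (h : IsLoop ω ℓ) {j : Fin 3} (hv : Vj ρ j ℓ)
    (hs : Small (κ * ρ j) ℓ) {i : Fin 3} (hij : i ≠ j) : ¬ Vj ρ i ℓ ∧ G (m i) ℓ = 0 := by
  obtain ⟨v, hv, hv1, hv2⟩ := hv
  have hκ : κ * ρ j ≤ ρ j / 8 := by
    have := D.ge j
    have := mul_le_mul_of_nonneg_right D.κ1 (by linarith : (0:ℝ) ≤ ρ j)
    linarith
  have hj := D.ge j
  constructor
  · rintro ⟨u, hu, hu1, hu2⟩
    have h1 := hs u hu v hv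
    have h2 : (nm u : ℝ) ≤ nm v + nm (u - v) := by exact_mod_cast nm_sub_le u v
    have h3 : (nm v : ℝ) ≤ nm u + nm (u - v) := by
      rw [nm_sub_comm]; exact_mod_cast nm_sub_le v u
    rcases lt_or_gt_of_ne hij with hlt | hlt
    · have := D.lt hlt
      linarith
    · have := D.lt hlt
      linarith
  · apply G_zero
    intro s hs1
    by_contra hW
    have h1 := small_ins T.out h hs hv hW
    have h2 : (nm s : ℝ) ≤ nm v + nm (s - v) := by exact_mod_cast nm_sub_le s v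
    have h3 : (nm v : ℝ) ≤ nm s + nm (s - v) := by
      rw [nm_sub_comm]; exact_mod_cast nm_sub_le v s
    have h4 := (D.hm i).supp s hs1
    rcases lt_or_gt_of_ne hij with hlt | hlt
    · have := D.lt hlt
      linarith
    · have := D.lt hlt
      linarith

/-- A loop which does not visit an annulus is inside or outside of it. -/
lemma in_or_out (T : Top) (h : IsLoop ω ℓ) {r : ℝ} (hr : 0 ≤ r) (hv : ¬ Vis (r - 2) (2 * r + 2) ℓ) :
    (∀ v ∈ vs ℓ, (nm v : ℝ) < r - 2) ∨ ∀ v ∈ vs ℓ, 2 * r + 2 < (nm v : ℝ) := by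
  have h0 : ∀ v ∈ vs ℓ, (nm v : ℝ) < r - 2 ∨ 2 * r + 2 < (nm v : ℝ) := by
    intro v hv'
    by_contra hc
    push Not at hc
    exact hv ⟨v, hv', hc.1, hc.2⟩
  by_contra hc
  push Not at hc
  obtain ⟨⟨p, hp, hp1⟩, q, hq, hq1⟩ := hc
  obtain ⟨u, hu, v, hv', h1, h2, h3⟩ := T.con ω ℓ h {v | (nm v : ℝ) < r - 2}
    ⟨q, hq, (h0 q hq).resolve_right (by linarith)⟩ ⟨p, hp, by simpa using hp1⟩
  have h4 : (nm v : ℝ) ≤ nm u + 1 := by exact_mod_cast nm_step h3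
  simp only [Set.mem_setOf_eq] at h1 h2
  have := (h0 v hv').resolve_left h2
  linarith

/-- Mass of the charge `i` seen by a loop inside of radius `R ≤ ρ i`. -/
lemma G_in (T : Top) (D : Dat κ Cm ρ b m) (h : IsLoop ω ℓ) {i : Fin 3} {R : ℝ} (hR : R ≤ ρ i)
    (hv : ∀ v ∈ vs ℓ, (nm v : ℝ) < R) : G (m i) ℓ = 0 := by
  apply G_zero
  intro s hs
  by_contra hW
  have h1 := inner_ins T.out h hv hW
  have h2 := ((D.hm i).supp s hs).1
  linarith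

open Classical in
/-- Mass of the charge `i` seen by a loop outside of radius `R ≥ 2 * ρ i`. -/
lemma G_out (T : Top) (D : Dat κ Cm ρ b m) (h : IsLoop ω ℓ) {i : Fin 3} {R : ℝ} (hR : 2 * ρ i ≤ R)
    (hv : ∀ v ∈ vs ℓ, R < (nm v : ℝ)) : G (m i) ℓ = if W ℓ 0 ≠ 0 then 1 else 0 := by
  have h1 : ∀ s, m i s ≠ 0 → W ℓ s = W ℓ 0 := fun s hs =>
    box_const T.nx T.jump h hv (by linarith [((D.hm i).supp s hs).2])
  split_ifs with h2
  · exact G_chg_one (D.hm i) fun s hs => by rw [h1 s hs]; exact h2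
  · push Not at h2
    exact G_zero fun s hs => by rw [h1 s hs, h2]

end

end Vale.Agent.P167.H259
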