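import Vale.Agent.P167.FKA.Basic
import Vale.Agent.P167.H45.Cnt
import Vale.Agent.P167.Top.PlaneW

/-!
# P167, general `q`, block GQ1: the Markov property
-/

namespace Vale.Agent.P167.H259

open Finset Vale.Agent.P167.FK

variable {Q : ℝ} {D D' : Finset (ℤ × ℤ)} {η : Cfg}

/-- The number of the loops which visit `D'` but not `D`. -/
noncomputable def LN (D D' : Finset (ℤ × ℤ)) (ω : Cfg) : ℕ :=
  Set.ncard {ℓ | IsLoop ω ℓ ∧ (∃ v ∈ vs ℓ, v ∈ D') ∧ ∀ v ∈ vs ℓ, v ∉ D}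

theorem LD_split (hD : D ⊆ D') (ω : Cfg) : LD D' ω = LD D ω + LN D D' ω := by
  unfold LD LN
  have hf : {ℓ | IsLoop ω ℓ ∧ ∃ v ∈ vs ℓ, v ∈ D'}.Finite := H45.LV_fin s_two D' ω
  have h1 : {ℓ | IsLoop ω ℓ ∧ ∃ v ∈ vs ℓ, v ∈ D}.Finite :=
    hf.subset fun ℓ ⟨h1, v, h2, h3⟩ => ⟨h1, v, h2, hD h3⟩
  have h2 : {ℓ | IsLoop ω ℓ ∧ (∃ v ∈ vs ℓ, v ∈ D') ∧ ∀ v ∈ vs ℓ, v ∉ D}.Finite :=
    hf.subset fun ℓ ⟨h1, h2, _⟩ => ⟨h1, h2⟩
  have h3 : Disjoint {ℓ | IsLoop ω ℓ ∧ ∃ v ∈ vs ℓ, v ∈ D}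
      {ℓ | IsLoop ω ℓ ∧ (∃ v ∈ vs ℓ, v ∈ D') ∧ ∀ v ∈ vs ℓ, v ∉ D} := by
    rw [Set.disjoint_left]
    rintro ℓ ⟨_, v, hv, hD⟩ ⟨_, _, h⟩
    exact h v hv hD
  rw [← Set.ncard_union_eq h3 h1 h2]
  congr 1
  ext ℓ
  simp only [Set.mem_ofPred_eq, Set.mem_union]
  constructor
  · rintro ⟨h1, h2⟩
    by_cases h : ∃ v ∈ vs ℓ, v ∈ D
    · exact Or.inl ⟨h1, h⟩
    · push Not at h
      exact Or.inr ⟨h1, h2, h⟩
  · rintro (⟨h1, v, h2, h3⟩ | ⟨h1, h2, _⟩)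
    · exact ⟨h1, v, h2, hD h3⟩
    · exact ⟨h1, h2⟩

theorem LN_congr {ω ω' : Cfg} (h : ∀ v, v ∉ D → ω v = ω' v) : LN D D' ω = LN D D' ω' := by
  have key : ∀ ω ω' : Cfg, (∀ v, v ∉ D → ω v = ω' v) →
      {ℓ | IsLoop ω ℓ ∧ (∃ v ∈ vs ℓ, v ∈ D') ∧ ∀ v ∈ vs ℓ, v ∉ D} ⊆
      {ℓ | IsLoop ω' ℓ ∧ (∃ v ∈ vs ℓ, v ∈ D') ∧ ∀ v ∈ vs ℓ, v ∉ D} := by
    rintro ω ω' h ℓ ⟨h1, h2, h3⟩
    exact ⟨s_loc ω ω' ℓ h1 fun v hv => h v (h3 v hv), h2, h3⟩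
  unfold LN
  congr 1
  exact (key ω ω' h).antisymm (key ω' ω fun v hv => (h v hv).symm)

theorem cf_congr {ω ω' : Cfg} (h : ∀ v, v ∉ D → ω v = ω' v) (S : Finset (ℤ × ℤ)) :
    cf D ω S = cf D ω' S := by
  funext v
  unfold cf
  split_ifs with hv
  · rfl
  · exact h v hv

theorem cf_cf (ω : Cfg) (S S' : Finset (ℤ × ℤ)) : cf D (cf D ω S) S' = cf D ω S' :=
  cf_congr (fun _ hv => FKA.cf_out hv) S'

theorem cf_union (hD : D ⊆ D') {T S : Finset (ℤ × ℤ)} (hT : T ⊆ D' \ D) (hS : S ⊆ D) :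
    cf D' η (T ∪ S) = cf D (cf D' η T) S := by
  funext v
  unfold cf
  by_cases hv : v ∈ D
  · have h1 : v ∉ T := fun h => (Finset.mem_sdiff.1 (hT h)).2 hv
    simp [hv, hD hv, h1]
  · have h1 : v ∉ S := fun h => hv (hS h)
    simp [hv, h1]

theorem Ex_out {ω ω' : Cfg} (h : ∀ v, v ∉ D → ω v = ω' v) (F : Cfg → ℝ) :
    Ex Q D ω F = Ex Q D ω' F := by
  have h1 : cf D ω = cf D ω' := funext fun S => cf_congr h S
  unfold Ex Zq
  rw [h1]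

theorem Zq_out {ω ω' : Cfg} (h : ∀ v, v ∉ D → ω v = ω' v) : Zq Q D ω = Zq Q D ω' := by
  have h1 : cf D ω = cf D ω' := funext fun S => cf_congr h S
  unfold Zq
  rw [h1]

theorem sum_pow_split (hD : D ⊆ D') (f : Finset (ℤ × ℤ) → ℝ) :
    ∑ S ∈ D'.powerset, f S = ∑ T ∈ (D' \ D).powerset, ∑ S ∈ D.powerset, f (T ∪ S) := by
  classical
  rw [← Finset.sum_product' (f := fun T S => f (T ∪ S))]
  symm
  refine Finset.sum_nbij' (fun p => p.1 ∪ p.2) (fun S => (S \ D, S ∩ D)) ?_ ?_ ?_ ?_ ?_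
  · rintro ⟨T, S⟩ h
    simp only [Finset.mem_product, Finset.mem_powerset] at h ⊢
    exact Finset.union_subset (h.1.trans Finset.sdiff_subset) (h.2.trans hD)
  · intro S h
    simp only [Finset.mem_product, Finset.mem_powerset] at h ⊢
    exact ⟨Finset.sdiff_subset_sdiff h le_rfl, Finset.inter_subset_right⟩
  · rintro ⟨T, S⟩ h
    simp only [Finset.mem_product, Finset.mem_powerset] at h
    ext v
    · simp only [Finset.mem_sdiff, Finset.mem_union]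
      constructor
      · rintro ⟨h1 | h1, h2⟩
        · exact h1
        · exact absurd (h.2 h1) h2
      · exact fun h1 => ⟨Or.inl h1, (Finset.mem_sdiff.1 (h.1 h1)).2⟩
    · simp only [Finset.mem_inter, Finset.mem_union]
      constructor
      · rintro ⟨h1 | h1, h2⟩
        · exact absurd h2 (Finset.mem_sdiff.1 (h.1 h1)).2
        · exact h1
      · exact fun h1 => ⟨Or.inr h1, h.2 h1⟩
  · intro S _
    exact Finset.sdiff_union_inter S D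
  · intro _ _
    rfl

theorem sum_inner (hQ : 0 < Q) (hD : D ⊆ D') (F : Cfg → ℝ) {T : Finset (ℤ × ℤ)}
    (hT : T ⊆ D' \ D) :
    ∑ S ∈ D.powerset, Q ^ LD D' (cf D' η (T ∪ S)) * F (cf D' η (T ∪ S)) =
      Q ^ LN D D' (cf D' η T) * Zq Q D (cf D' η T) * Ex Q D (cf D' η T) F := by
  unfold Ex
  rw [mul_assoc, mul_div_cancel₀ _ (FKA.Zq_pos hQ D (cf D' η T)).ne', Finset.mul_sum]
  refine Finset.sum_congr rfl fun S hS => ?_
  rw [cf_union hD hT (Finset.mem_powerset.1 hS), LD_split hD,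
    LN_congr (D := D) (D' := D') (ω := cf D (cf D' η T) S) (ω' := cf D' η T)
      fun v hv => FKA.cf_out hv, pow_add]
  ring

/-- Markov property. -/
theorem f_markov : F_markov := by
  intro Q D D' η F hQ hD _
  have h : ∀ G : Cfg → ℝ, ∑ S ∈ D'.powerset, Q ^ LD D' (cf D' η S) * G (cf D' η S) =
      ∑ T ∈ (D' \ D).powerset,
        Q ^ LN D D' (cf D' η T) * Zq Q D (cf D' η T) * Ex Q D (cf D' η T) G := by
    intro G
    rw [sum_pow_split hD (fun S => Q ^ LD D' (cf D' η S) * G (cf D' η S))]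
    exact Finset.sum_congr rfl fun T hT => sum_inner hQ hD G (Finset.mem_powerset.1 hT)
  show (∑ S ∈ D'.powerset, Q ^ LD D' (cf D' η S) * F (cf D' η S)) / Zq Q D' η =
    (∑ S ∈ D'.powerset, Q ^ LD D' (cf D' η S) * Ex Q D (cf D' η S) F) / Zq Q D' η
  rw [h F, h (fun ω => Ex Q D ω F)]
  congr 1
  refine Finset.sum_congr rfl fun T _ => ?_
  congr 1
  have h1 : Ex Q D (cf D' η T) (fun ω => Ex Q D ω F) =
      Ex Q D (cf D' η T) (fun _ => Ex Q D (cf D' η T) F) :=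
    FKA.Ex_congr fun S _ => Ex_out (fun v hv => FKA.cf_out hv) F
  rw [h1, FKA.Ex_const hQ]

end Vale.Agent.P167.H259
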