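import Vale.Agent.P167.H259.Base
import Vale.Agent.P167.H562.Local

/-!
# P167, block E5 (helper259): `S_indep`
-/

namespace Vale.Agent.P167.H259

open Finset MeasureTheory ProbabilityTheory
open Vale.Agent.P167
open Vale.Agent.P167.H562

/-- The squares at distance strictly between `a` and `b`. -/
def Ann (a b : ℝ) : Set (ℤ × ℤ) := {v | a < (nm v : ℝ) ∧ (nm v : ℝ) < b}

lemma Nn_loc (hl : S_loc) (a b : ℝ) : LocFun (Ann a b) (Nn a b) := by
  intro ω ω' h
  unfold Nn
  congr 1
  ext ℓ
  constructor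
  · rintro ⟨h1, h2, h3⟩
    exact ⟨hl ω ω' ℓ h1 fun v hv => h v (h2 v hv), h2, h3⟩
  · rintro ⟨h1, h2, h3⟩
    exact ⟨hl ω' ω ℓ h1 fun v hv => (h v (h2 v hv)).symm, h2, h3⟩

lemma Ann_finite (a b : ℝ) : (Ann a b).Finite := by
  refine (Finset.finite_toSet (bx ⌊b⌋)).subset ?_
  intro v hv
  exact mem_bx.2 (Int.le_floor.2 hv.2.le)

lemma meas_of_loc {S : Set (ℤ × ℤ)} (hS : S.Finite) {X : Cfg → ℕ} (h : LocFun S X) :
    Measurable X := by
  classical
  have : Finite S := hS
  let r : Cfg → (S → Bool) := fun ω v => ω v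
  let ext : (S → Bool) → Cfg := fun η v => if hv : v ∈ S then η ⟨v, hv⟩ else false
  have h1 : X = (fun η => X (ext η)) ∘ r := by
    funext ω
    apply h
    intro v hv
    simp [ext, r, hv]
  rw [h1]
  apply Measurable.comp
  · exact measurable_of_countable _
  · exact measurable_pi_lambda _ fun v => measurable_pi_apply _

theorem indep (hl : S_loc) : S_indep := by
  refine ⟨fun a b => meas_of_loc (Ann_finite a b) (Nn_loc hl a b), fun J a b hab => ?_⟩
  have hP : iIndepFun (fun v (ω : Cfg) => ω v) μ := by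
    unfold μ
    exact iIndepFun_infinitePi (X := fun _ => id) (fun _ => measurable_id)
  refine iIndepFun_of_local hP (S := fun j => Ann (a j) (b j)) ?_
    (fun j => meas_of_loc (Ann_finite _ _) (Nn_loc hl _ _)) (fun j => Nn_loc hl _ _)
  intro i j hij
  rw [Set.disjoint_left]
  rintro v ⟨h1, h2⟩ ⟨h3, h4⟩
  rcases lt_or_gt_of_ne hij with hlt | hlt
  · have := hab i j hlt; linarith
  · have := hab j i hlt; linarith

end Vale.Agent.P167.H259
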