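import Vale.Agent.P167.H259.Main
import Vale.Agent.P167.H259.Ind
import Vale.Agent.P167.Top.PlaneW

/-!
# P167, blocks E3, E4, E5 (helper259): unconditional forms
-/

namespace Vale.Agent.P167.H259

theorem top : Top := ⟨_root_.Vale.Agent.P167.s_nx, _root_.Vale.Agent.P167.s_jump, _root_.Vale.Agent.P167.s_out, _root_.Vale.Agent.P167.s_con, _root_.Vale.Agent.P167.s_two⟩

theorem s_cls_up : S_cls_up := cls_up top
theorem s_cls_lo : S_cls_lo := cls_lo top
theorem s_indep : S_indep := indep _root_.Vale.Agent.P167.s_loc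

end Vale.Agent.P167.H259
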