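import Vale.Agent.P167.H259.Cls

/-!
# P167, blocks E3 and E4 (helper259): `S_cls_up` and `S_cls_lo`
-/

namespace Vale.Agent.P167.H259

open Finset
open Vale.Agent.P167

section

variable {κ Cm : ℝ} {ρ b : Fin 3 → ℝ} {m : Fin 3 → ℤ × ℤ → ℝ} {ω : Cfg} {ℓ : Finset Ed}

/-- `ℓ` is between the annuli of radii `r` and `R` and surrounds the origin. -/
def Btw (r R : ℝ) (ℓ : Finset Ed) : Prop :=
  (∀ v ∈ vs ℓ, 2 * r + 2 < (nm v : ℝ) ∧ (nm v : ℝ) < R - 2) ∧ W ℓ 0 ≠ 0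

/-- `ℓ` is small and visits the annulus `j`. -/
def PY (κ : ℝ) (ρ : Fin 3 → ℝ) (j : Fin 3) (ℓ : Finset Ed) : Prop :=
  Vj ρ j ℓ ∧ Small (κ * ρ j) ℓ

/-- `ℓ` is not small and visits some annulus. -/
def PK (κ : ℝ) (ρ : Fin 3 → ℝ) (ℓ : Finset Ed) : Prop :=
  ∃ j, Vj ρ j ℓ ∧ ¬ Small (κ * ρ j) ℓ

lemma btw_not_vis (D : Dat κ Cm ρ b m) (_h : IsLoop ω ℓ) {j : Fin 3} (hv : Vj ρ j ℓ) :
    ¬ Btw (ρ 0) (ρ 1) ℓ ∧ ¬ Btw (ρ 1) (ρ 2) ℓ := by
  obtain ⟨v, hv, h1, h2⟩ := hv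
  have h0 := D.r0
  have hr1 := D.r1
  have hr2 := D.r2
  constructor <;>
  · rintro ⟨hb, _⟩
    have := hb v hv
    fin_cases j <;> simp at h1 h2 <;> linarith

open Classical in
/-- Classification of one loop. -/
lemma cls_one (T : Top) (D : Dat κ Cm ρ b m) (h : IsLoop ω ℓ) :
    wf (G (fun x => ∑ j, b j * m j x) ℓ) =
      (∏ j, if PY κ ρ j ℓ then wf (G (fun x => b j * m j x) ℓ) else 1) *
      (if PK κ ρ ℓ then wf (G (fun x => ∑ j, b j * m j x) ℓ) else 1) *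
      (if Btw (ρ 0) (ρ 1) ℓ then wf (b 0) else 1) *
      (if Btw (ρ 1) (ρ 2) ℓ then wf (b 0 + b 1) else 1) := by
  have h0 := D.r0
  have hr1 := D.r1
  have hr2 := D.r2
  have hb := D.hb
  rw [Fin.sum_univ_three] at hb
  by_cases hV : ∃ j, Vj ρ j ℓ
  · obtain ⟨j, hj⟩ := hV
    obtain ⟨n1, n2⟩ := btw_not_vis D h hj
    rw [if_neg n1, if_neg n2, mul_one, mul_one]
    by_cases hs : ∃ j, PY κ ρ j ℓ
    · obtain ⟨j, hj, hs⟩ := hs
      have hK : ¬ PK κ ρ ℓ := by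
        rintro ⟨i, hi, hi'⟩
        by_cases hij : i = j
        · subst hij; exact hi' hs
        · exact (small_one T D h hj hs hij).1 hi
      rw [if_neg hK, mul_one, Finset.prod_eq_single j]
      · rw [if_pos ⟨hj, hs⟩, D.G_smul, G_lin b m ℓ D.mem, Finset.sum_eq_single j]
        · intro i _ hij
          rw [(small_one T D h hj hs hij).2, mul_zero]
        · intro hh; exact absurd (Finset.mem_univ j) hh
      · intro i _ hij
        rw [if_neg]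
        rintro ⟨hi, _⟩
        exact (small_one T D h hj hs hij).1 hi
      · intro hh; exact absurd (Finset.mem_univ j) hh
    · push Not at hs
      have hK : PK κ ρ ℓ := ⟨j, hj, fun h' => hs j ⟨hj, h'⟩⟩
      rw [if_pos hK, Finset.prod_eq_one, one_mul]
      intro i _
      rw [if_neg (hs i)]
  · push Not at hV
    have hY : ∀ j, ¬ PY κ ρ j ℓ := fun j hj => hV j hj.1
    have hK : ¬ PK κ ρ ℓ := fun ⟨j, hj, _⟩ => hV j hj
    rw [if_neg hK, mul_one, Finset.prod_eq_one (fun j _ => if_neg (hY j)), one_mul, D.G_eq]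
    obtain ⟨v0, hv0⟩ := vs_nonempty h
    have c0 := in_or_out T h (by linarith) (hV 0)
    have c1 := in_or_out T h (by linarith) (hV 1)
    have c2 := in_or_out T h (by linarith) (hV 2)
    rcases c2 with c2 | c2
    · rw [G_in T D h (i := 2) (by linarith) c2]
      rcases c1 with c1 | c1
      · rw [G_in T D h (i := 1) (by linarith) c1]
        have nb : ¬ Btw (ρ 1) (ρ 2) ℓ := fun hh => by
          have := (hh.1 v0 hv0).1
          have := c1 v0 hv0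
          linarith
        rw [if_neg nb]
        rcases c0 with c0 | c0
        · rw [G_in T D h (i := 0) (by linarith) c0]
          have na : ¬ Btw (ρ 0) (ρ 1) ℓ := fun hh => by
            have := (hh.1 v0 hv0).1
            have := c0 v0 hv0
            linarith
          rw [if_neg na]
          simp [wf_zero]
        · rw [G_out T D h (i := 0) (by linarith) c0]
          by_cases hW : W ℓ 0 = 0
          · have na : ¬ Btw (ρ 0) (ρ 1) ℓ := fun hh => hh.2 hW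
            rw [if_neg na, if_neg (by simp [hW])]
            simp [wf_zero]
          · have na : Btw (ρ 0) (ρ 1) ℓ := ⟨fun v hv => ⟨c0 v hv, c1 v hv⟩, hW⟩
            rw [if_pos na, if_pos hW]
            simp
      · have na : ¬ Btw (ρ 0) (ρ 1) ℓ := fun hh => by
          have := (hh.1 v0 hv0).2
          have := c1 v0 hv0
          linarith
        rw [if_neg na, G_out T D h (i := 0) (by linarith) c1, G_out T D h (i := 1) (by linarith) c1]
        by_cases hW : W ℓ 0 = 0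
        · have nb : ¬ Btw (ρ 1) (ρ 2) ℓ := fun hh => hh.2 hW
          rw [if_neg nb, if_neg (by simp [hW])]
          simp [wf_zero]
        · have nb : Btw (ρ 1) (ρ 2) ℓ := ⟨fun v hv => ⟨c1 v hv, c2 v hv⟩, hW⟩
          rw [if_pos nb, if_pos hW]
          simp
    · have na : ¬ Btw (ρ 0) (ρ 1) ℓ := fun hh => by
        have := (hh.1 v0 hv0).2
        have := c2 v0 hv0
        linarith
      have nb : ¬ Btw (ρ 1) (ρ 2) ℓ := fun hh => by
        have := (hh.1 v0 hv0).2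
        have := c2 v0 hv0
        linarith
      rw [if_neg na, if_neg nb, G_out T D h (i := 0) (by linarith) c2,
        G_out T D h (i := 1) (by linarith) c2, G_out T D h (i := 2) (by linarith) c2,
        ← add_mul, ← add_mul, hb, zero_mul, wf_zero]
      simp

/-- The loops which visit the box of radius `2 * ρ 2 + 2`. -/
noncomputable def SS (T : Top) (ρ : Fin 3 → ℝ) (ω : Cfg) : Finset (Finset Ed) :=
  (finite_loops' T.two ω (2 * ρ 2 + 2)).toFinset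

lemma mem_SS {T : Top} : ℓ ∈ SS T ρ ω ↔ IsLoop ω ℓ ∧ ∃ v ∈ vs ℓ, (nm v : ℝ) ≤ 2 * ρ 2 + 2 := by
  unfold SS
  rw [Set.Finite.mem_toFinset]
  rfl

lemma vj_mem_SS (T : Top) (D : Dat κ Cm ρ b m) (h : IsLoop ω ℓ) {j : Fin 3} (hv : Vj ρ j ℓ) :
    ℓ ∈ SS T ρ ω := by
  obtain ⟨v, hv, _, h2⟩ := hv
  exact mem_SS.2 ⟨h, v, hv, by linarith [D.le2 j]⟩

lemma btw_mem_SS (T : Top) (h : IsLoop ω ℓ) {r R : ℝ} (hR : R ≤ ρ 2) (h0 : 0 ≤ ρ 2)
    (hb : Btw r R ℓ) : ℓ ∈ SS T ρ ω := by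
  obtain ⟨v, hv⟩ := vs_nonempty h
  exact mem_SS.2 ⟨h, v, hv, by linarith [(hb.1 v hv).2]⟩

lemma X_prod (T : Top) (D : Dat κ Cm ρ b m) (ω : Cfg) :
    X (fun x => ∑ j, b j * m j x) ω =
      ∏ ℓ ∈ SS T ρ ω, wf (G (fun x => ∑ j, b j * m j x) ℓ) := by
  unfold X
  apply finprod_mem_eq_prod_of_inter_mulSupport_eq
  ext ℓ
  simp only [Set.mem_inter_iff, Function.mem_mulSupport, Finset.mem_coe, mem_SS]
  constructor
  · rintro ⟨h, hne⟩
    refine ⟨⟨h, ?_⟩, hne⟩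
    by_contra hc
    push Not at hc
    apply hne
    have hb := D.hb
    rw [Fin.sum_univ_three] at hb
    have h0 := D.r0
    have hr1 := D.r1
    have hr2 := D.r2
    have hl : IsLoop ω ℓ := h
    rw [D.G_eq, G_out T D hl (i := 0) (by linarith) hc,
        G_out T D hl (i := 1) (by linarith) hc, G_out T D hl (i := 2) (by linarith) hc,
        ← add_mul, ← add_mul, hb, zero_mul, wf_zero]
  · rintro ⟨⟨h, _⟩, hne⟩
    exact ⟨h, hne⟩

open Classical in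
lemma Yn_prod (T : Top) (D : Dat κ Cm ρ b m) (ω : Cfg) (j : Fin 3) :
    Yn (ρ j - 2) (2 * ρ j + 2) (κ * ρ j) (fun x => b j * m j x) ω =
      ∏ ℓ ∈ SS T ρ ω, if PY κ ρ j ℓ then wf (G (fun x => b j * m j x) ℓ) else 1 := by
  unfold Yn
  rw [← Finset.prod_filter]
  apply finprod_mem_eq_prod_of_inter_mulSupport_eq
  congr 1
  ext ℓ
  simp only [Finset.coe_filter, Set.mem_setOf_eq]
  constructor
  · rintro ⟨h, hv, hs⟩
    exact ⟨vj_mem_SS T D h hv, hv, hs⟩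
  · rintro ⟨h, hv, hs⟩
    exact ⟨(mem_SS.1 h).1, hv, hs⟩

open Classical in
lemma Nn_card (T : Top) {r R : ℝ} (hR : R ≤ ρ 2) (h0 : 0 ≤ ρ 2) (ω : Cfg) :
    Nn (2 * r + 2) (R - 2) ω = ((SS T ρ ω).filter (Btw r R)).card := by
  unfold Nn
  rw [← Set.ncard_coe_finset]
  congr 1
  ext ℓ
  simp only [Finset.coe_filter, Set.mem_setOf_eq]
  constructor
  · rintro ⟨h, hv, hW⟩
    exact ⟨btw_mem_SS T h hR h0 ⟨hv, hW⟩, hv, hW⟩
  · rintro ⟨h, hv, hW⟩
    exact ⟨(mem_SS.1 h).1, hv, hW⟩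

open Classical in
lemma Kn_card (T : Top) (D : Dat κ Cm ρ b m) (ω : Cfg) (j : Fin 3) :
    Kn (ρ j - 2) (2 * ρ j + 2) (κ * ρ j) ω =
      ((SS T ρ ω).filter (fun ℓ => Vj ρ j ℓ ∧ ¬ Small (κ * ρ j) ℓ)).card := by
  unfold Kn
  rw [← Set.ncard_coe_finset]
  congr 1
  ext ℓ
  simp only [Finset.coe_filter, Set.mem_setOf_eq]
  constructor
  · rintro ⟨h, hv, hs⟩
    exact ⟨vj_mem_SS T D h hv, hv, hs⟩
  · rintro ⟨h, hv, hs⟩
    exact ⟨(mem_SS.1 h).1, hv, hs⟩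

open Classical in
/-- Exact classification identity. -/
theorem X_eq (T : Top) (D : Dat κ Cm ρ b m) (ω : Cfg) :
    X (fun x => ∑ j, b j * m j x) ω =
      (∏ j, Yn (ρ j - 2) (2 * ρ j + 2) (κ * ρ j) (fun x => b j * m j x) ω) *
      (∏ ℓ ∈ (SS T ρ ω).filter (PK κ ρ), wf (G (fun x => ∑ j, b j * m j x) ℓ)) *
      wf (b 0) ^ (Nn (2 * ρ 0 + 2) (ρ 1 - 2) ω) * wf (b 0 + b 1) ^ (Nn (2 * ρ 1 + 2) (ρ 2 - 2) ω) := by
  have h0 := D.r0
  have hr1 := D.r1
  have hr2 := D.r2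
  rw [X_prod T D, Finset.prod_congr rfl (fun ℓ hℓ => cls_one T D (mem_SS.1 hℓ).1),
    Finset.prod_mul_distrib, Finset.prod_mul_distrib, Finset.prod_mul_distrib, Finset.prod_comm]
  congr 1
  · congr 1
    · congr 1
      · exact Finset.prod_congr rfl fun j _ => (Yn_prod T D ω j).symm
      · rw [Finset.prod_filter]
    · rw [← Finset.prod_filter, Finset.prod_const, Nn_card T (by linarith) (by linarith)]
  · rw [← Finset.prod_filter, Finset.prod_const, Nn_card T le_rfl (by linarith)]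

open Classical in
lemma PK_card (T : Top) (D : Dat κ Cm ρ b m) (ω : Cfg) :
    ((SS T ρ ω).filter (PK κ ρ)).card ≤ ∑ j, Kn (ρ j - 2) (2 * ρ j + 2) (κ * ρ j) ω := by
  have h1 : (SS T ρ ω).filter (PK κ ρ) ⊆ (Finset.univ : Finset (Fin 3)).biUnion
      (fun j => (SS T ρ ω).filter (fun ℓ => Vj ρ j ℓ ∧ ¬ Small (κ * ρ j) ℓ)) := by
    intro ℓ hℓ
    obtain ⟨hS, j, hj, hj'⟩ := Finset.mem_filter.1 hℓ
    exact Finset.mem_biUnion.2 ⟨j, Finset.mem_univ _, Finset.mem_filter.2 ⟨hS, hj, hj'⟩⟩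
  refine (Finset.card_le_card h1).trans (Finset.card_biUnion_le.trans ?_)
  exact Finset.sum_le_sum fun j _ => (Kn_card T D ω j).ge

end

/-- E3. -/
theorem cls_up (T : Top) : S_cls_up := by
  intro κ Cm hκ hκ'
  refine ⟨32, fun ω ρ b m h0 h1 h2 hm hb => ?_⟩
  classical
  have D : Dat κ Cm ρ b m := ⟨hκ, hκ', h0, h1, h2, hm, hb⟩
  rw [X_eq T D, abs_mul, abs_mul, abs_mul, Finset.abs_prod, abs_pow, abs_pow]
  apply mul_le_mul_of_nonneg_right _ (by positivity)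
  apply mul_le_mul_of_nonneg_right _ (by positivity)
  apply mul_le_mul_of_nonneg_left _ (Finset.prod_nonneg fun _ _ => abs_nonneg _)
  rw [Finset.abs_prod]
  calc ∏ ℓ ∈ (SS T ρ ω).filter (PK κ ρ), |wf (G (fun x => ∑ j, b j * m j x) ℓ)|
      ≤ ∏ _ℓ ∈ (SS T ρ ω).filter (PK κ ρ), (2 : ℝ) :=
        Finset.prod_le_prod (fun _ _ => abs_nonneg _) (fun _ _ => abs_wf_le _)
    _ = 2 ^ ((SS T ρ ω).filter (PK κ ρ)).card := Finset.prod_const _
    _ ≤ 2 ^ (∑ j, Kn (ρ j - 2) (2 * ρ j + 2) (κ * ρ j) ω) :=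
        pow_le_pow_right₀ (by norm_num) (PK_card T D ω)

section

variable {κ Cm : ℝ} {ρ b : Fin 3 → ℝ} {m : Fin 3 → ℤ × ℤ → ℝ} {ω : Cfg} {ℓ ℓ₀ : Finset Ed}

/-- A loop which meets the inside of `ℓ₀` does not see the charge `2`. -/
lemma inside_G (T : Top) (D : Dat κ Cm ρ b m) (h0 : IsLoop ω ℓ₀) (hb0 : Btw (ρ 1) (ρ 2) ℓ₀)
    (h : IsLoop ω ℓ) {v : ℤ × ℤ} (hv : v ∈ vs ℓ) (hv1 : (nm v : ℝ) ≤ 2 * ρ 1 + 2) :
    G (m 2) ℓ = 0 := by
  have hne : ℓ₀ ≠ ℓ := by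
    rintro rfl
    linarith [(hb0.1 v hv).1]
  have hvn : v ∉ vs ℓ₀ := fun hh => by linarith [(hb0.1 v hh).1]
  obtain ⟨e, he, rfl⟩ := exists_edge hv
  have hW : W ℓ₀ (ls e) ≠ 0 := by
    have h1 := ls_near e
    rw [corner_ls T.nx T.jump h0 hvn h1.2.1 h1.1 h1.2.2.2 h1.2.2.1,
      box_const T.nx T.jump h0 (R := 2 * ρ 1 + 2) (fun u hu => (hb0.1 u hu).1) hv1]
    exact hb0.2
  have hall : ∀ e' ∈ ℓ, (nm (ls e') : ℝ) < ρ 2 - 2 := by
    intro e' he'
    apply inner_ins T.out h0 (fun u hu => (hb0.1 u hu).2)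
    rw [← ((T.two ω ℓ₀ ℓ h0 h hne).2 e he e' he').1]
    exact hW
  apply G_in T D h (i := 2) (R := ρ 2 - 1) (by linarith)
  intro u hu
  obtain ⟨e', he', rfl⟩ := exists_edge hu
  have h1 := hall e' he'
  have h2 : (nm (hdv e') : ℝ) ≤ nm (ls e') + 1 := by exact_mod_cast nm_hdv_le e'
  linarith

open Classical in
/-- A loop which visits the annulus `2` surrounds all or nothing of the other charges. -/
lemma outside_G (T : Top) (D : Dat κ Cm ρ b m) (h0 : IsLoop ω ℓ₀) (hb0 : Btw (ρ 1) (ρ 2) ℓ₀)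
    (h : IsLoop ω ℓ) (hv2 : Vj ρ 2 ℓ) {i : Fin 3} (hi : i ≠ 2) :
    G (m i) ℓ = if W ℓ 0 ≠ 0 then 1 else 0 := by
  obtain ⟨v, hv, hv1, _⟩ := hv2
  have hne : ℓ₀ ≠ ℓ := by
    rintro rfl
    linarith [(hb0.1 v hv).2]
  have hvn : v ∉ vs ℓ₀ := fun hh => by linarith [(hb0.1 v hh).2]
  obtain ⟨e, he, rfl⟩ := exists_edge hv
  have hW : W ℓ₀ (ls e) = 0 := by
    have h1 := ls_near e
    rw [corner_ls T.nx T.jump h0 hvn h1.2.1 h1.1 h1.2.2.2 h1.2.2.1]
    by_contra hc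
    have := inner_ins T.out h0 (fun u hu => (hb0.1 u hu).2) hc
    linarith
  have hall : ∀ e' ∈ ℓ, 2 * ρ 1 + 2 < (nm (ls e') : ℝ) := by
    intro e' he'
    by_contra hc
    push Not at hc
    have h1 := box_const T.nx T.jump h0 (R := 2 * ρ 1 + 2) (fun u hu => (hb0.1 u hu).1) hc
    rw [← ((T.two ω ℓ₀ ℓ h0 h hne).2 e he e' he').1, hW] at h1
    exact hb0.2 h1.symm
  have hi' : 2 * ρ i ≤ 2 * ρ 1 + 1 := by
    have h0 := D.r0
    have hr1 := D.r1
    fin_cases i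
    · simp only [Fin.zero_eta]; linarith
    · simp only [Fin.mk_one]; linarith
    · exact absurd rfl hi
  apply G_out T D h hi'
  intro u hu
  obtain ⟨e', he', rfl⟩ := exists_edge hu
  have h1 := hall e' he'
  have h2 : (nm (ls e') : ℝ) ≤ nm (hdv e') + 1 := by exact_mod_cast nm_ls_le e'
  linarith

end

/-- E4. -/
theorem cls_lo (T : Top) : S_cls_lo := by
  intro κ Cm hκ hκ'
  refine ⟨32, fun ω ρ b m w₀ h0 h1 h2 hm hb hw0 hw1 hY hw01 hw2 hw2' hcase => ?_⟩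
  classical
  have D : Dat κ Cm ρ b m := ⟨hκ, hκ', h0, h1, h2, hm, hb⟩
  have hb3 := hb
  rw [Fin.sum_univ_three] at hb3
  rw [X_eq T D]
  have p0 : 0 < wf (b 0) := by
    have := hY 0 1 ⟨zero_le_one, le_rfl⟩
    rwa [one_mul] at this
  have p1 : 0 < wf (b 0 + b 1) := by
    have := hw01 1 ⟨zero_le_one, le_rfl⟩ 1 ⟨zero_le_one, le_rfl⟩
    rw [one_mul, one_mul] at this
    linarith
  have pY : ∀ j, 0 ≤ Yn (ρ j - 2) (2 * ρ j + 2) (κ * ρ j) (fun x => b j * m j x) ω := by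
    intro j
    rw [Yn_prod T D]
    apply Finset.prod_nonneg
    intro ℓ _
    split_ifs
    · rw [D.G_smul, mul_comm]
      exact (hY j _ (G_mem (hm j) ℓ)).le
    · exact zero_le_one
  apply mul_le_mul_of_nonneg_right _ (by positivity)
  apply mul_le_mul_of_nonneg_right _ (by positivity)
  apply mul_le_mul_of_nonneg_left _ (Finset.prod_nonneg fun j _ => pY j)
  have key : ∀ ℓ ∈ (SS T ρ ω).filter (PK κ ρ), w₀ ≤ wf (G (fun x => ∑ j, b j * m j x) ℓ) := by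
    intro ℓ hℓ
    obtain ⟨hS, j, hj, _⟩ := Finset.mem_filter.1 hℓ
    have hl := (mem_SS.1 hS).1
    rw [D.G_eq]
    rcases hcase with hc | hc
    · rw [hc, zero_mul, add_zero, mul_comm (b 0), mul_comm (b 1)]
      exact hw01 _ (G_mem (hm 0) ℓ) _ (G_mem (hm 1) ℓ)
    · obtain ⟨ℓ₀, hl0, hb0⟩ : ∃ ℓ₀, IsLoop ω ℓ₀ ∧ Btw (ρ 1) (ρ 2) ℓ₀ := by
        by_contra hcon
        push Not at hcon
        apply hc
        rw [Nn_card T le_rfl (by linarith), Finset.card_eq_zero, Finset.filter_eq_empty_iff]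
        intro ℓ' hℓ'
        exact hcon ℓ' (mem_SS.1 hℓ').1
      by_cases hj2 : j = 2
      · subst hj2
        rw [outside_G T D hl0 hb0 hl hj (i := 0) (by decide),
          outside_G T D hl0 hb0 hl hj (i := 1) (by decide)]
        split_ifs with hW
        · have h3 : b 0 * 1 + b 1 * 1 + b 2 * G (m 2) ℓ = -((1 - G (m 2) ℓ) * b 2) := by
            linear_combination hb3
          rw [h3]
          have := G_mem (hm 2) ℓ
          exact hw2' _ ⟨by linarith [this.2], by linarith [this.1]⟩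
        · rw [mul_zero, mul_zero, zero_add, zero_add, mul_comm]
          exact hw2 _ (G_mem (hm 2) ℓ)
      · obtain ⟨v, hv, hv1, hv2⟩ := hj
        have hv3 : (nm v : ℝ) ≤ 2 * ρ 1 + 2 := by
          fin_cases j
          · simp only [Fin.zero_eta] at hv2; linarith
          · simpa using hv2
          · exact absurd rfl hj2
        rw [inside_G T D hl0 hb0 hl hv hv3, mul_zero, add_zero, mul_comm (b 0), mul_comm (b 1)]
        exact hw01 _ (G_mem (hm 0) ℓ) _ (G_mem (hm 1) ℓ)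
  calc w₀ ^ (∑ j, Kn (ρ j - 2) (2 * ρ j + 2) (κ * ρ j) ω)
      ≤ w₀ ^ ((SS T ρ ω).filter (PK κ ρ)).card :=
        pow_le_pow_of_le_one hw0.le hw1 (PK_card T D ω)
    _ = ∏ _ℓ ∈ (SS T ρ ω).filter (PK κ ρ), w₀ := (Finset.prod_const _).symm
    _ ≤ ∏ ℓ ∈ (SS T ρ ω).filter (PK κ ρ), wf (G (fun x => ∑ j, b j * m j x) ℓ) :=
        Finset.prod_le_prod (fun _ _ => hw0.le) key

end Vale.Agent.P167.H259
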